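/-
P235-LL (helper565), row ASM: from the process half (`RowProcess`) and the graph half (`RowSys`) to
the theorem on all plane graphs.
-/
import Vale.Agent.P235.LL.Rows
import Vale.Agent.P235.H555.Blk
import Vale.Agent.P235.LL.H844.Extra

set_option linter.all false
set_option autoImplicit false

namespace Vale.Agent.P235.LL

open Vale.Agent.P235

/-- SYS: a plane graph without cut vertex has a system of domains which contains the components of
`G - {r, r'}`, for some `r`, `r'` -/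
def RowSys : Prop := ∃ C : ℝ, 1 ≤ C ∧ ∀ (V : Type) [Finite V] (G : SimpleGraph V)
  (ℓ : Sym2 V → ℝ), G.Connected → (∃ σ, PlaneMap G σ) → 3 ≤ Nat.card V →
  (∀ v, (G.induce {x | x ≠ v}).Connected) → (∀ e ∈ G.edgeSet, 0 < ℓ e) →
  ∃ (S : Sys G ℓ (C * Swp.LL (Nat.card V))) (r r' : V),
    ∀ x, x ≠ r → x ≠ r' → ∃ D, S.Good D ∧ D.U = compSet G {r, r'} x

/-- larger constants -/
theorem embeds_up {V : Type} [Finite V] {G : SimpleGraph V} {ℓ : Sym2 V → ℝ} (hc : G.Connected)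
    (hℓ : ∀ e ∈ G.edgeSet, 0 < ℓ e) {a b : ℝ} (hE : EmbedsL1 (pathDist G ℓ) a) (hab : a ≤ b) :
    EmbedsL1 (pathDist G ℓ) b := by
  obtain ⟨Ω, m, μ, g, hg⟩ := hE
  exact ⟨Ω, m, μ, g, fun x y => ⟨(hg x y).1, (hg x y).2.trans
    (mul_le_mul_of_nonneg_right hab ((pathDist_isMet hc hℓ).nonneg x y))⟩⟩

/-- **ASM** -/
theorem planar_main (hP : RowProcess) (hS : RowSys) : PL := by
  obtain ⟨A, hA, hP⟩ := hP
  obtain ⟨B, hB, hS⟩ := hS
  have hAB : 1 ≤ A * B := by nlinarith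
  refine ⟨A * B, hAB, fun V _ G hc hpl => ?_⟩
  have hone : ∀ n, 1 ≤ A * B * Swp.LL n := fun n => by
    have := Swp.LL_one n
    nlinarith
  refine H555.blocks (hone _) (n := Nat.card V) ?_ V G hc hpl le_rfl
  intro W _ H hHc hHp h3 hn hcut ℓ hℓ
  obtain ⟨S, r, r', hst⟩ := hS W H ℓ hHc hHp h3 hcut hℓ
  have hLL := Swp.LL_one (Nat.card W)
  have h1 : EmbedsL1 (pathDist H ℓ) (A * (B * Swp.LL (Nat.card W))) :=
    hP W H ℓ _ hHc hℓ (by nlinarith) S r r' hst
  refine embeds_up hHc hℓ h1 ?_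
  have hm := Swp.LL_mono hn
  have : 0 ≤ A * B := by linarith
  nlinarith

end Vale.Agent.P235.LL
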