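/-
P235-LL (helper565), row START, from helper536's `init`.
-/
import Vale.Agent.P235.LL.H536.Init
import Vale.Agent.P235.LL.H482.Child

set_option linter.all false
set_option autoImplicit false

namespace Vale.Agent.P235.LL.H565

open SimpleGraph H510 Vale.Agent.P235.LL.H536

theorem wl_nonneg' {V : Type} {G : SimpleGraph V} {ℓ : Sym2 V → ℝ} (hℓ : ∀ e ∈ G.edgeSet, 0 < ℓ e)
    {x y : V} (p : G.Walk x y) : 0 ≤ wl ℓ p := by
  unfold wl
  apply List.sum_nonneg
  intro a ha
  rw [List.mem_map] at ha
  obtain ⟨e, he, rfl⟩ := ha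
  exact (hℓ e (p.edges_subset_edgeSet he)).le

/-- **START** -/
theorem rowStart : RowStart := by
  classical
  intro V _ G ℓ hs r r' hrr x hxr hxr'
  have hx : x ∉ ({r, r'} : Set V) := by
    rintro (h | h)
    · exact hxr h
    · exact hxr' h
  have hst : Start G r r' (compSet G {r, r'} x) := start_comp hx
  obtain ⟨-, -, hi⟩ := init hs.conn hs.plane hs.cut hrr
  obtain ⟨n1, n2, n3, t1, t2⟩ := hi _ hst
  have hd := pathDist_isMet hs.conn hs.pos
  set U := compSet G {r, r'} x with hU
  refine ⟨![{r}, {r'}, {r'}], fun _ _ => 0, ?_⟩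
  have hcase : ∀ i : Fin 3, (![({r} : Set V), {r'}, {r'}] i = {r}) ∨
      (![({r} : Set V), {r'}, {r'}] i = {r'}) := by
    intro i
    fin_cases i
    · exact Or.inl rfl
    · exact Or.inr rfl
    · exact Or.inr rfl
  have hne : r ≠ r' := hrr.ne
  refine
  { ne := ⟨x, ReachOff.refl hx⟩
    conn := H482.wconn_of_induce hst.conn
    out := fun i => ?_
    pne := fun i => ?_
    foot := fun i b hb => ?_
    cover := fun v hv b hb hvb => ?_
    disj := fun i j => ?_
    two := ⟨0, 1, Set.disjoint_singleton.2 hne⟩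
    inj := fun i => ?_
    a := fun i b hb b' hb' v v' p _ hvb hvb' => ?_
    b := fun i b hb b' hb' => ?_
    c := fun i => ?_ }
  · rcases hcase i with h | h <;> rw [h]
    · exact Set.disjoint_singleton_right.2 hst.nr
    · exact Set.disjoint_singleton_right.2 hst.nr'
  · rcases hcase i with h | h <;> rw [h]
    · exact Set.singleton_nonempty r
    · exact Set.singleton_nonempty r'
  · rcases hcase i with h | h <;> rw [h] at hb
    · rw [Set.mem_singleton_iff.1 hb]
      exact n1
    · rw [Set.mem_singleton_iff.1 hb]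
      exact n2
  · rcases n3 b hb ⟨v, hv, hvb⟩ with h | h
    · exact ⟨0, h⟩
    · exact ⟨1, h⟩
  · rcases hcase i with h | h <;> rcases hcase j with h' | h' <;> rw [h, h']
    · exact Or.inl ⟨rfl, rfl⟩
    · exact Or.inr (Set.disjoint_singleton.2 hne)
    · exact Or.inr (Set.disjoint_singleton.2 hne.symm)
    · exact Or.inl ⟨rfl, rfl⟩
  · rcases hcase i with h | h <;> rw [h]
    · exact Set.injOn_singleton _ _
    · exact Set.injOn_singleton _ _
  · have h1 := hs.pos _ (G.mem_edgeSet.2 hvb)
    have h2 := hs.pos _ (G.mem_edgeSet.2 hvb')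
    have h3 := wl_nonneg' hs.pos p
    rw [sub_self, abs_zero]
    linarith
  · have : b = b' := by
      rcases hcase i with h | h <;> rw [h] at hb hb' <;>
        rw [Set.mem_singleton_iff.1 hb, Set.mem_singleton_iff.1 hb']
    rw [this, hd.self, sub_self, abs_zero]
  · rcases hcase i with h | h <;> rw [h]
    · exact (t1 _).2
    · exact (t2 _).2

end Vale.Agent.P235.LL.H565
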