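/-
P235-LL (helper565): the planar theorem.
-/
import Vale.Agent.P235.LL.Process
import Vale.Agent.P235.LL.H40.SysAsm
import Vale.Agent.P235.LL.H482.Child
import Vale.Agent.P235.LL.H565.Start
import Vale.Agent.P235.H510.GRowsA
import Vale.Agent.P235.H20.TE4

set_option linter.all false
set_option autoImplicit false

namespace Vale.Agent.P235.LL

/-- **every planar graph metric embeds into `L₁` with distortion `O(log log n)`** -/
theorem pl : PL :=
  pl_of_rows process H510.rowCoords H510.rowIsDom H482.rowChild H20.rowTE H565.rowStart

end Vale.Agent.P235.LL
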