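/-
P235-LL (helper565): intervals of plane graphs.  The two-ends sets which occur in the proof are,
up to a factor `4` in the lengths, sets of vertices on shortest `s`-`t` paths.
-/
import Vale.Agent.P235.H20.TE

set_option linter.all false
set_option autoImplicit false

namespace Vale.Agent.P235.LL

open SimpleGraph Vale.Agent.P235 H20

/-- the vertices on shortest `s`-`t` paths -/
def interval {V : Type} (G : SimpleGraph V) (ℓ : Sym2 V → ℝ) (s t : V) : Set V :=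
  {v | pathDist G ℓ s v + pathDist G ℓ v t = pathDist G ℓ s t}

/-- in plane graphs with at most `n` vertices the metric on every interval embeds into `L₁` with
distortion `K` -/
def IntBound (n : ℕ) (K : ℝ) : Prop :=
  ∀ (W : Type) [Finite W] (Γ : SimpleGraph W) (ℓ' : Sym2 W → ℝ) (s t : W), Γ.Connected →
    (∃ σ : Equiv.Perm Γ.Dart, PlaneMap Γ σ) → (∀ e ∈ Γ.edgeSet, 0 < ℓ' e) → Nat.card W ≤ n →
    EmbedsL1 (fun u v : interval Γ ℓ' s t => pathDist Γ ℓ' u v) K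

section

variable {W : Type} {Γ : SimpleGraph W} {ℓ₀ : Sym2 W → ℝ} {h : W → ℝ}

open Classical in
/-- shorter lengths: the height difference on the edges of slope at least `1/D` -/
noncomputable def lsh (D : ℝ) (ℓ₀ : Sym2 W → ℝ) (h : W → ℝ) (e : Sym2 W) : ℝ :=
  if lmax ℓ₀ h e ≤ D * hdiff h e then hdiff h e else lmax ℓ₀ h e

theorem hdiff_nonneg (h : W → ℝ) (e : Sym2 W) : 0 ≤ hdiff h e := by
  induction e using Sym2.ind with
  | _ x y => rw [hdiff_mk]; exact abs_nonneg _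

theorem hdiff_le_lmax (e : Sym2 W) : hdiff h e ≤ lmax ℓ₀ h e := le_max_right _ _

theorem hdiff_le_lsh {D : ℝ} (e : Sym2 W) : hdiff h e ≤ lsh D ℓ₀ h e := by
  unfold lsh
  split_ifs
  · exact le_rfl
  · exact hdiff_le_lmax e

theorem lsh_le {D : ℝ} (e : Sym2 W) : lsh D ℓ₀ h e ≤ lmax ℓ₀ h e := by
  unfold lsh
  split_ifs
  · exact hdiff_le_lmax e
  · exact le_rfl

theorem le_lsh {D : ℝ} (hD : 1 ≤ D) (e : Sym2 W) (he : 0 < lmax ℓ₀ h e) :
    lmax ℓ₀ h e ≤ D * lsh D ℓ₀ h e := by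
  unfold lsh
  split_ifs with h1
  · exact h1
  · nlinarith

theorem lsh_pos {D : ℝ} (hD : 1 ≤ D) (e : Sym2 W) (he : 0 < lmax ℓ₀ h e) : 0 < lsh D ℓ₀ h e := by
  have h1 := le_lsh hD e he
  by_contra h2
  push Not at h2
  nlinarith

theorem len_mono {ℓ ℓ' : Sym2 W → ℝ} {D : ℝ} {x y : W} (p : Γ.Walk x y)
    (hle : ∀ e ∈ Γ.edgeSet, ℓ e ≤ D * ℓ' e) : len ℓ p ≤ D * len ℓ' p := by
  induction p with
  | nil => simp [len_nil]
  | @cons x y z hadj p ih =>
    rw [len_cons, len_cons, mul_add]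
    have := hle _ (Γ.mem_edgeSet.2 hadj)
    linarith

/-- an edge of slope at least `1/D` -/
theorem lsh_steep {D : ℝ} (hD : 1 ≤ D) {v u : W} (h1 : h u ≤ h v)
    (h2 : ℓ₀ s(v, u) ≤ D * (h v - h u)) : lsh D ℓ₀ h s(v, u) = h v - h u := by
  have h3 : hdiff h s(v, u) = h v - h u := by
    rw [hdiff_mk, abs_of_nonneg (sub_nonneg.2 h1)]
  have h4 : lmax ℓ₀ h s(v, u) ≤ D * hdiff h s(v, u) := by
    rw [h3]
    refine max_le h2 ?_
    rw [h3]
    nlinarith [sub_nonneg.2 h1]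
  unfold lsh
  rw [if_pos h4, h3]

theorem h_le_pd (hc : Γ.Connected) {ℓ : Sym2 W → ℝ} (hle : ∀ e ∈ Γ.edgeSet, hdiff h e ≤ ℓ e)
    (x y : W) : |h x - h y| ≤ pathDist Γ ℓ x y := by
  refine le_pd hc fun p => ?_
  induction p with
  | nil => simp [len_nil]
  | @cons x y z hadj p ih =>
    rw [len_cons]
    have h1 : |h x - h z| ≤ |h x - h y| + |h y - h z| := abs_sub_le _ _ _
    have h2 := hle _ (Γ.mem_edgeSet.2 hadj)
    rw [hdiff_mk] at h2
    linarith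

/-- going down along steep edges -/
theorem down_dist [Finite W] (hc : Γ.Connected) {ℓ : Sym2 W → ℝ} (hpos : ∀ e ∈ Γ.edgeSet, 0 < ℓ e)
    {L : Set W} {s : W}
    (down : ∀ v ∈ L, v ≠ s → ∃ u ∈ L, Γ.Adj v u ∧ ℓ s(v, u) = h v - h u) :
    ∀ v ∈ L, pathDist Γ ℓ v s ≤ h v - h s := by
  have hwf : WellFounded (fun u v : W => h u < h v) := by
    have : IsTrans W (fun u v : W => h u < h v) := ⟨fun _ _ _ h1 h2 => h1.trans h2⟩
    have : Std.Irrefl (fun u v : W => h u < h v) := ⟨fun _ => lt_irrefl _⟩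
    exact Finite.wellFounded_of_trans_of_irrefl _
  intro v
  induction v using hwf.induction with
  | _ v ih =>
    intro hv
    by_cases hvs : v = s
    · subst hvs
      rw [pd_self hpos]
      linarith
    · obtain ⟨u, hu, hadj, hlen⟩ := down v hv hvs
      have h1 := hpos _ (Γ.mem_edgeSet.2 hadj)
      have h2 := ih u (by linarith) hu
      have h3 := pd_step hc hpos hadj s
      linarith

/-- **the two-ends sets are intervals, up to a factor `D`** -/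
theorem embeds_of_int [Finite W] {n : ℕ} {K : ℝ} (hK : IntBound n K) (hK0 : 0 ≤ K)
    (hP : ∃ σ : Equiv.Perm Γ.Dart, PlaneMap Γ σ) (hc : Γ.Connected)
    (hpos : ∀ a ∈ Γ.edgeSet, 0 < lmax ℓ₀ h a) (hn : Nat.card W ≤ n) {D : ℝ} (hD : 1 ≤ D)
    {L : Set W} {s t : W}
    (down : ∀ v ∈ L, v ≠ s → ∃ u ∈ L, Γ.Adj v u ∧ h u ≤ h v ∧ ℓ₀ s(v, u) ≤ D * (h v - h u))
    (up : ∀ v ∈ L, v ≠ t → ∃ u ∈ L, Γ.Adj v u ∧ h v ≤ h u ∧ ℓ₀ s(v, u) ≤ D * (h u - h v)) :
    EmbedsL1 (fun u v : L => pathDist Γ (lmax ℓ₀ h) u v) (D * K) := by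
  classical
  have hpos' : ∀ a ∈ Γ.edgeSet, 0 < lsh D ℓ₀ h a := fun a ha => lsh_pos hD a (hpos a ha)
  have hle1 : ∀ a b : W, pathDist Γ (lsh D ℓ₀ h) a b ≤ pathDist Γ (lmax ℓ₀ h) a b := fun a b =>
    le_pd hc fun p => (pd_le hpos' p).trans (by
      have := len_mono (D := 1) p fun e _ => (lsh_le (ℓ₀ := ℓ₀) (h := h) (D := D) e).trans_eq
        (one_mul _).symm
      linarith)
  have hD0 : (0 : ℝ) < D := by linarith
  have hle2 : ∀ a b : W, pathDist Γ (lmax ℓ₀ h) a b ≤ D * pathDist Γ (lsh D ℓ₀ h) a b := by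
    intro a b
    have h1 : D⁻¹ * pathDist Γ (lmax ℓ₀ h) a b ≤ pathDist Γ (lsh D ℓ₀ h) a b :=
      le_pd hc fun p => by
        have h2 := pd_le hpos p
        have h3 := len_mono (ℓ' := lsh D ℓ₀ h) p fun e he => le_lsh hD e (hpos e he)
        rw [inv_mul_le_iff₀ hD0]
        exact h2.trans h3
    rwa [inv_mul_le_iff₀ hD0] at h1
  -- distances to the ends
  have hds : ∀ v ∈ L, pathDist Γ (lsh D ℓ₀ h) v s ≤ h v - h s :=
    down_dist hc hpos' fun v hv hvs => by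
      obtain ⟨u, hu, h1, h2, h3⟩ := down v hv hvs
      exact ⟨u, hu, h1, lsh_steep hD h2 h3⟩
  have hdt : ∀ v ∈ L, pathDist Γ (lsh D ℓ₀ h) v t ≤ h t - h v := by
    intro v hv
    have := down_dist (h := fun x => - h x) hc hpos' (s := t) (L := L) (fun v hv hvt => by
      obtain ⟨u, hu, h1, h2, h3⟩ := up v hv hvt
      refine ⟨u, hu, h1, ?_⟩
      rw [Sym2.eq_swap, lsh_steep hD h2 (by rw [Sym2.eq_swap]; exact h3)]
      ring) v hv
    linarith
  have hhl : ∀ x y : W, |h x - h y| ≤ pathDist Γ (lsh D ℓ₀ h) x y :=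
    h_le_pd hc fun e _ => hdiff_le_lsh e
  have htri : ∀ x y z : W, pathDist Γ (lsh D ℓ₀ h) x z ≤
      pathDist Γ (lsh D ℓ₀ h) x y + pathDist Γ (lsh D ℓ₀ h) y z := by
    intro x y z
    have h1 : pathDist Γ (lsh D ℓ₀ h) x z - pathDist Γ (lsh D ℓ₀ h) y z ≤
        pathDist Γ (lsh D ℓ₀ h) x y := by
      refine le_pd hc fun p => ?_
      have h2 : pathDist Γ (lsh D ℓ₀ h) x z - len (lsh D ℓ₀ h) p ≤
          pathDist Γ (lsh D ℓ₀ h) y z := le_pd hc fun q => by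
        have h3 := pd_le hpos' (p.append q)
        rw [len_append] at h3
        linarith
      linarith
    linarith
  have hL : ∀ v ∈ L, v ∈ interval Γ (lsh D ℓ₀ h) s t := by
    intro v hv
    have h1 := hds v hv
    have h2 := hdt v hv
    have h3 := hhl s t
    have h4 := htri s v t
    have h5 := pd_comm hc hpos' s v
    have h6 := le_abs_self (h t - h s)
    rw [abs_sub_comm] at h6
    show _ = _
    apply le_antisymm _ h4
    linarith
  obtain ⟨Ω, mΩ, μ, f, hf⟩ := hK W Γ (lsh D ℓ₀ h) s t hc hP hpos' hn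
  refine ⟨Ω, mΩ, μ, fun v => D • f ⟨v, hL v v.2⟩, fun x y => ?_⟩
  obtain ⟨h1, h2⟩ := hf ⟨x, hL x x.2⟩ ⟨y, hL y y.2⟩
  have h3 : ‖D • f ⟨x, hL x x.2⟩ - D • f ⟨y, hL y y.2⟩‖ =
      D * ‖f ⟨x, hL x x.2⟩ - f ⟨y, hL y y.2⟩‖ := by
    rw [← smul_sub, norm_smul, Real.norm_of_nonneg hD0.le]
  have h4 := hle1 x y
  have h5 := hle2 x y
  rw [h3]
  constructor
  · exact h5.trans (mul_le_mul_of_nonneg_left h1 hD0.le)
  · calc D * ‖f ⟨x, hL x x.2⟩ - f ⟨y, hL y y.2⟩‖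
        ≤ D * (K * pathDist Γ (lsh D ℓ₀ h) x y) := mul_le_mul_of_nonneg_left h2 hD0.le
      _ ≤ D * (K * pathDist Γ (lmax ℓ₀ h) x y) :=
        mul_le_mul_of_nonneg_left (mul_le_mul_of_nonneg_left h4 hK0) hD0.le
      _ = D * K * pathDist Γ (lmax ℓ₀ h) x y := by ring

end

end Vale.Agent.P235.LL
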