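/-
P235-LL (helper565): the distortion of planar metrics is, up to an absolute factor, the distortion
of intervals in plane graphs.
-/
import Vale.Agent.P235.LL.H565.IntStep
import Vale.Agent.P235.LL.H40.SysAsm

set_option linter.all false
set_option autoImplicit false

namespace Vale.Agent.P235.LL

open SimpleGraph Vale.Agent.P235

theorem IntBound.anti {m n : ℕ} {K : ℝ} (h : IntBound n K) (hmn : m ≤ n) : IntBound m K :=
  fun W _ Γ ℓ' s t hc hP hℓ hW => h W Γ ℓ' s t hc hP hℓ (hW.trans hmn)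

/-- **the reduction to intervals** -/
theorem reduction_of (p : RowProcess) (h1 : RowCoords) (h2 : RowIsDom) (h3 : RowChild)
    (h5 : RowStart) : ∃ C : ℝ, 1 ≤ C ∧ ∀ (n : ℕ) (K : ℝ), 1 ≤ K → IntBound (n + 1) K →
      ∀ (V : Type) [Finite V] (G : SimpleGraph V), G.Connected →
        (∃ σ : Equiv.Perm G.Dart, PlaneMap G σ) → Nat.card V ≤ n → DistortionLE G (C * K) := by
  obtain ⟨A, hA, hp⟩ := p
  obtain ⟨B, hB, hTE⟩ := rowTEK
  have hAB : 1 ≤ A * B := by nlinarith
  refine ⟨A * B, hAB, fun n K hK hI => ?_⟩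
  refine H555.blocks (by nlinarith) ?_
  intro W _ H hc hP hcard hn hcut ℓ hℓ
  have hs : Std H ℓ := ⟨hc, hℓ, hcard, hcut, hP⟩
  obtain ⟨S, r, r', hst⟩ := sys_of h1 h2 h3 h5 hs (K := B * K)
    (hTE W H ℓ K hs hK (hI.anti (by omega)))
  have h4 := hp W H ℓ (B * K) hc hℓ (by nlinarith) S r r' hst
  rwa [← mul_assoc] at h4

end Vale.Agent.P235.LL
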