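/-
P235-LL (helper565): intervals of plane graphs with adjacent ends are, up to a factor `3`, plane
graphs all of whose vertices lie on shortest `s`-`t` paths.
-/
import Vale.Agent.P235.LL.H565.Interval
import Vale.Agent.P235.LL.H844.Cyc
import Vale.Agent.P235.LL.H868.M5
import Vale.Agent.P235.H555.Minor
import Vale.Agent.P235.Comp.PathSum

set_option linter.all false
set_option autoImplicit false

namespace Vale.Agent.P235.LL

open SimpleGraph Vale.Agent.P235 H20

/-- plane graphs with at most `n` vertices and an edge `st` such that all vertices lie on shortest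
`s`-`t` paths embed into `L₁` with distortion `K` -/
def StBound (n : ℕ) (K : ℝ) : Prop :=
  ∀ (W : Type) [Finite W] (Γ : SimpleGraph W) (ℓ' : Sym2 W → ℝ) (s t : W), Γ.Connected →
    (∃ σ : Equiv.Perm Γ.Dart, PlaneMap Γ σ) → (∀ e ∈ Γ.edgeSet, 0 < ℓ' e) → Γ.Adj s t →
    (∀ v, pathDist Γ ℓ' s v + pathDist Γ ℓ' v t = pathDist Γ ℓ' s t) → Nat.card W ≤ n →
    EmbedsL1 (pathDist Γ ℓ') K

section near

variable {W : Type} {Γ : SimpleGraph W} {ℓ : Sym2 W → ℝ} {L : Set W}

/-- nearest points of `L` with connected cells -/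
theorem exists_nu [Finite W] (hc : Γ.Connected) (hpos : ∀ e ∈ Γ.edgeSet, 0 < ℓ e)
    (hL : L.Nonempty) : ∃ ν : W → W, (∀ u, ν u ∈ L) ∧ (∀ a ∈ L, ν a = a) ∧
      (∀ u, ∀ b ∈ L, pathDist Γ ℓ u (ν u) ≤ pathDist Γ ℓ u b) ∧
      ∀ u, u ∉ L → ∃ v, Γ.Adj u v ∧ ν v = ν u ∧ pathDist Γ ℓ v (ν u) < pathDist Γ ℓ u (ν u) := by
  classical
  have hm := pathDist_isMet hc hpos
  obtain ⟨N, ⟨idx⟩⟩ := Finite.exists_equiv_fin W
  let f : W → W → ℝ ×ₗ ℕ := fun u b => toLex (pathDist Γ ℓ u b, (idx b : ℕ))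
  have hex : ∀ u, ∃ a ∈ L, ∀ b ∈ L, f u a ≤ f u b := fun u =>
    Set.exists_min_image L (f u) (Set.toFinite L) hL
  choose ν hνL hνmin using hex
  have h1 : ∀ u, ∀ b ∈ L, pathDist Γ ℓ u (ν u) ≤ pathDist Γ ℓ u b := by
    intro u b hb
    have := hνmin u b hb
    rcases (Prod.Lex.toLex_le_toLex).1 this with h | h
    · exact h.le
    · exact h.1.le
  have h2 : ∀ u, ∀ b ∈ L, pathDist Γ ℓ u b = pathDist Γ ℓ u (ν u) →
      (idx (ν u) : ℕ) ≤ (idx b : ℕ) := by
    intro u b hb he
    have := hνmin u b hb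
    rcases (Prod.Lex.toLex_le_toLex).1 this with h | h
    · rw [he] at h
      exact absurd h (lt_irrefl _)
    · exact h.2
  refine ⟨ν, hνL, fun a ha => ?_, h1, fun u hu => ?_⟩
  · by_contra hne
    have h3 := h1 a a ha
    rw [hm.self] at h3
    have h4 := hm.pos a (ν a) (fun e => hne e.symm)
    linarith
  · have hfirst : ∀ (a : W) (p : Γ.Walk u a), (p.edges.map ℓ).sum = pathDist Γ ℓ u a → u ≠ a →
        ∃ v, Γ.Adj u v ∧ pathDist Γ ℓ v a = pathDist Γ ℓ u a - ℓ s(u, v) := by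
      intro a p hp hne
      cases p with
      | nil => exact absurd rfl hne
      | @cons _ v _ hadj p =>
        have hlen : ((Walk.cons hadj p).edges.map ℓ).sum = ℓ s(u, v) + len ℓ p := by
          have := len_cons (ℓ := ℓ) hadj p
          simpa [len] using this
        rw [hlen] at hp
        have h3 : pathDist Γ ℓ v a ≤ len ℓ p := pd_le hpos p
        have h5 := pd_step hc hpos hadj a
        exact ⟨v, hadj, by linarith⟩
    obtain ⟨p, hp⟩ := exists_geodesic hc hpos u (ν u)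
    obtain ⟨v, hadj, h6⟩ := hfirst _ p hp fun e => hu (e ▸ hνL u)
    · have h4 := hpos _ (Γ.mem_edgeSet.2 hadj)
      refine ⟨v, hadj, ?_, by linarith⟩
      -- both are minimisers at `v`
      have h7 : ∀ b ∈ L, pathDist Γ ℓ v (ν u) ≤ pathDist Γ ℓ v b := by
        intro b hb
        have h8 := pd_step hc hpos hadj b
        have h9 := h1 u b hb
        linarith
      have h8 : pathDist Γ ℓ v (ν u) = pathDist Γ ℓ v (ν v) :=
        le_antisymm (h7 _ (hνL v)) (h1 v _ (hνL u))
      have h9 := h2 v (ν u) (hνL u) h8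
      have h10 : pathDist Γ ℓ u (ν v) = pathDist Γ ℓ u (ν u) := by
        have e1 := pd_step hc hpos hadj (ν v)
        have e2 := h1 u (ν v) (hνL v)
        linarith
      have h11 := h2 u (ν v) (hνL v) h10
      exact idx.injective (Fin.ext (le_antisymm h9 h11))

end near

section arcs

variable {W : Type} {h : W → ℝ} {R : W → W → Prop} {p q : W} {A : Set W}

/-- a semimetric which is at most the height difference along the steps of an arc -/
theorem Arc.dist_le [Finite W] (hA : Arc R h p q A) {D : W → W → ℝ}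
    (h0 : ∀ x, D x x = 0) (tri : ∀ x y z, D x z ≤ D x y + D y z)
    (hR : ∀ x ∈ A, ∀ y ∈ A, R x y → D x y ≤ h y - h x) :
    ∀ x ∈ A, ∀ y ∈ A, h x ≤ h y → D x y ≤ h y - h x := by
  have hwf : WellFounded (fun u v : W => h v < h u) := by
    have : IsTrans W (fun u v : W => h v < h u) := ⟨fun _ _ _ h1 h2 => h2.trans h1⟩
    have : Std.Irrefl (fun u v : W => h v < h u) := ⟨fun _ => lt_irrefl _⟩
    exact Finite.wellFounded_of_trans_of_irrefl _
  intro x
  induction x using hwf.induction with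
  | _ x ih =>
    intro hx y hy hxy
    by_cases he : x = y
    · subst he
      rw [h0]
      linarith
    · have hlt : h x < h y := lt_of_le_of_ne hxy fun e => he (hA.inj x hx y hy e)
      have hxq : x ≠ q := by
        rintro rfl
        exact absurd (hA.le y hy) (not_le.2 hlt)
      obtain ⟨z, hz, h1, h2, h3⟩ := hA.next x hx hxq
      have h4 : h z ≤ h y := (h3 y hy).resolve_left (not_le.2 hlt)
      have h5 := ih z h2 hz y hy h4
      have h6 := hR x hx z hz h1
      have h7 := tri x z y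
      linarith

end arcs

/-- the data: `L` is a set of vertices of a plane graph, every vertex of `L` has edges of slope `1`
inside `L` upwards (except `t`) and downwards (except `s`), `s` and `t` are adjacent -/
structure StData {W : Type} (Γ : SimpleGraph W) (ℓ : Sym2 W → ℝ) (h : W → ℝ) (L : Set W)
    (s t : W) : Prop where
  conn : Γ.Connected
  pos : ∀ e ∈ Γ.edgeSet, 0 < ℓ e
  plane : ∃ σ : Equiv.Perm Γ.Dart, PlaneMap Γ σ
  sL : s ∈ L
  tL : t ∈ L
  st : Γ.Adj s t
  lip : ∀ e ∈ Γ.edgeSet, hdiff h e ≤ ℓ e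
  down : ∀ v ∈ L, v ≠ s → ∃ u ∈ L, Γ.Adj v u ∧ h u < h v ∧ ℓ s(v, u) = h v - h u
  up : ∀ v ∈ L, v ≠ t → ∃ u ∈ L, Γ.Adj v u ∧ h v < h u ∧ ℓ s(v, u) = h u - h v

namespace StData

variable {W : Type} [Finite W] {Γ : SimpleGraph W} {ℓ : Sym2 W → ℝ} {h : W → ℝ} {L : Set W}
  {s t : W}

/-- the graph of the cells -/
def cell (Γ : SimpleGraph W) (L : Set W) (ν : W → W) : SimpleGraph L where
  Adj a b := a ≠ b ∧ ∃ u v, Γ.Adj u v ∧ ν u = a ∧ ν v = b
  symm := ⟨by
    rintro a b ⟨hab, u, v, huv, hu, hv⟩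
    exact ⟨hab.symm, v, u, huv.symm, hv, hu⟩⟩
  loopless := ⟨fun a ha => ha.1 rfl⟩

/-- the lengths of the graph of the cells: distances in `Γ` -/
noncomputable def clen (Γ : SimpleGraph W) (ℓ : Sym2 W → ℝ) (L : Set W)
    (hsym : ∀ a b : W, pathDist Γ ℓ a b = pathDist Γ ℓ b a) : Sym2 L → ℝ :=
  Sym2.lift ⟨fun a b => pathDist Γ ℓ a b, fun a b => hsym a b⟩

variable (hd : StData Γ ℓ h L s t)

include hd

theorem sym (a b : W) : pathDist Γ ℓ a b = pathDist Γ ℓ b a := pd_comm hd.conn hd.pos a b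

theorem main {ν : W → W} (hνL : ∀ u, ν u ∈ L) (hν : ∀ a ∈ L, ν a = a)
    (hmin : ∀ u, ∀ b ∈ L, pathDist Γ ℓ u (ν u) ≤ pathDist Γ ℓ u b)
    (hstep : ∀ u, u ∉ L → ∃ v, Γ.Adj u v ∧ ν v = ν u ∧
      pathDist Γ ℓ v (ν u) < pathDist Γ ℓ u (ν u)) :
    (cell Γ L ν).Connected ∧ (∃ σ : Equiv.Perm (cell Γ L ν).Dart, PlaneMap (cell Γ L ν) σ) ∧
      (∀ e ∈ (cell Γ L ν).edgeSet, 0 < clen Γ ℓ L hd.sym e) ∧
      (cell Γ L ν).Adj ⟨s, hd.sL⟩ ⟨t, hd.tL⟩ ∧
      (∀ v, pathDist (cell Γ L ν) (clen Γ ℓ L hd.sym) ⟨s, hd.sL⟩ v +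
        pathDist (cell Γ L ν) (clen Γ ℓ L hd.sym) v ⟨t, hd.tL⟩ =
          pathDist (cell Γ L ν) (clen Γ ℓ L hd.sym) ⟨s, hd.sL⟩ ⟨t, hd.tL⟩) ∧
      ∀ x y : L, pathDist Γ ℓ x y ≤ pathDist (cell Γ L ν) (clen Γ ℓ L hd.sym) x y ∧
        pathDist (cell Γ L ν) (clen Γ ℓ L hd.sym) x y ≤ 3 * pathDist Γ ℓ x y := by
  classical
  have hm := pathDist_isMet hd.conn hd.pos
  have hadj' : ∀ u v, Γ.Adj u v → (⟨ν u, hνL u⟩ : L) = ⟨ν v, hνL v⟩ ∨
      (cell Γ L ν).Adj ⟨ν u, hνL u⟩ ⟨ν v, hνL v⟩ := by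
    intro u v huv
    by_cases he : (⟨ν u, hνL u⟩ : L) = ⟨ν v, hνL v⟩
    · exact Or.inl he
    · exact Or.inr ⟨he, u, v, huv, rfl, rfl⟩
  -- connected
  have hconn : (cell Γ L ν).Connected := by
    have : Nonempty L := ⟨⟨s, hd.sL⟩⟩
    refine ⟨fun a b => ?_⟩
    have key : ∀ {u v : W} (p : Γ.Walk u v),
        (cell Γ L ν).Reachable ⟨ν u, hνL u⟩ ⟨ν v, hνL v⟩ := by
      intro u v p
      induction p with
      | nil => exact Reachable.refl _
      | @cons u v w huv p ih =>
        rcases hadj' u v huv with h1 | h1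
        · rw [h1]; exact ih
        · exact h1.reachable.trans ih
    obtain ⟨p⟩ := hd.conn.preconnected a.1 b.1
    have := key p
    have ha : (⟨ν a.1, hνL a.1⟩ : L) = a := Subtype.ext (hν a.1 a.2)
    have hb : (⟨ν b.1, hνL b.1⟩ : L) = b := Subtype.ext (hν b.1 b.2)
    rwa [ha, hb] at this
  -- edges of `Γ` inside `L`
  have hadjL : ∀ a b : L, Γ.Adj a b → (cell Γ L ν).Adj a b := fun a b hab =>
    ⟨fun e => hab.ne (congrArg Subtype.val e), a, b, hab, hν a a.2, hν b b.2⟩
  have hst : (cell Γ L ν).Adj ⟨s, hd.sL⟩ ⟨t, hd.tL⟩ := hadjL _ _ hd.st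
  -- plane
  have hplane : ∃ σ : Equiv.Perm (cell Γ L ν).Dart, PlaneMap (cell Γ L ν) σ := by
    have hcard : 2 ≤ Nat.card L := by
      have : Nontrivial L := ⟨⟨s, hd.sL⟩, ⟨t, hd.tL⟩, hst.ne⟩
      exact (Finite.one_lt_card_iff_nontrivial).2 this
    refine H555.pl_of_branch hd.conn hconn hcard (fun a => {u | ν u = a}) (fun a => ?_)
      (fun a b hab => ?_) (fun a b hab => ?_) hd.plane
    · have hwf : WellFounded (fun u v : W => pathDist Γ ℓ u a < pathDist Γ ℓ v a) := by
        have : IsTrans W (fun u v : W => pathDist Γ ℓ u a < pathDist Γ ℓ v a) :=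
          ⟨fun _ _ _ h1 h2 => h1.trans h2⟩
        have : Std.Irrefl (fun u v : W => pathDist Γ ℓ u a < pathDist Γ ℓ v a) :=
          ⟨fun _ => lt_irrefl _⟩
        exact Finite.wellFounded_of_trans_of_irrefl _
      have ha : a.1 ∈ {u | ν u = a.1} := hν a.1 a.2
      refine H868.conn_of_reach ha fun x => ?_
      induction x using hwf.induction with
      | _ x ih =>
        intro hx
        by_cases hxL : x ∈ L
        · have : x = a := (hν x hxL).symm.trans hx
          rw [this]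
        · obtain ⟨v, hxv, hv, hlt⟩ := hstep x hxL
          have hx' : ν x = a := hx
          rw [hx'] at hv hlt
          exact (ih v hlt hv).tail ⟨hxv.symm, hv, hx⟩
    · rw [Set.disjoint_left]
      intro x hx hx'
      exact hab (Subtype.ext ((show ν x = a from hx).symm.trans hx'))
    · obtain ⟨-, u, v, huv, hu, hv⟩ := hab
      exact ⟨u, hu, v, hv, huv⟩
  -- lengths
  have hlen : ∀ a b : L, clen Γ ℓ L hd.sym s(a, b) = pathDist Γ ℓ a b := fun a b => rfl
  have hpos' : ∀ e ∈ (cell Γ L ν).edgeSet, 0 < clen Γ ℓ L hd.sym e := by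
    intro e
    induction e using Sym2.ind with
    | _ a b =>
      intro hab
      rw [hlen]
      exact hm.pos a b fun e => hab.1 (Subtype.ext e)
  set D : L → L → ℝ := pathDist (cell Γ L ν) (clen Γ ℓ L hd.sym) with hD
  have hm' := pathDist_isMet hconn hpos'
  have hlow : ∀ x y : L, pathDist Γ ℓ x y ≤ D x y := by
    intro x y
    refine le_pd hconn fun p => ?_
    induction p with
    | nil => rw [len_nil, hm.self]
    | @cons x y z hxy p ih =>
      rw [len_cons, hlen]
      exact (hm.tri x y z).trans (by linarith)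
  have hlip : ∀ x y : W, |h x - h y| ≤ pathDist Γ ℓ x y := h_le_pd hd.conn hd.lip
  -- one step
  have hstepD : ∀ a b : L, (cell Γ L ν).Adj a b → D a b ≤ pathDist Γ ℓ a b := fun a b hab => by
    have := pd_step hconn hpos' hab b
    rw [hlen, pd_self hpos'] at this
    linarith
  have hsteep : ∀ a b : L, Γ.Adj a b → ℓ s((a : W), b) = h b - h a → D a b ≤ h b - h a := by
    intro a b hab he
    refine (hstepD a b (hadjL a b hab)).trans ?_
    rw [← he]
    exact pathDist_adj hd.pos hab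
  -- distances to `s`, `t`
  have hDs : ∀ v : L, D v ⟨s, hd.sL⟩ ≤ h v - h s := by
    intro v
    refine down_dist (h := fun x : L => h x) (L := Set.univ) (s := ⟨s, hd.sL⟩) hconn hpos' ?_ v
      (Set.mem_univ _)
    rintro ⟨v, hv⟩ - hvs
    obtain ⟨u, hu, hvu, hlt, he⟩ := hd.down v hv fun e => hvs (Subtype.ext e)
    refine ⟨⟨u, hu⟩, Set.mem_univ _, hadjL _ _ hvu, ?_⟩
    rw [hlen]
    apply le_antisymm
    · refine (pathDist_adj hd.pos hvu).trans ?_
      rw [he]
    · exact (le_abs_self _).trans (hlip v u)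
  have hDt : ∀ v : L, D v ⟨t, hd.tL⟩ ≤ h t - h v := by
    intro v
    have := down_dist (h := fun x : L => - h x) (L := Set.univ) (s := ⟨t, hd.tL⟩) hconn hpos'
      (by
        rintro ⟨v, hv⟩ - hvs
        obtain ⟨u, hu, hvu, hlt, he⟩ := hd.up v hv fun e => hvs (Subtype.ext e)
        refine ⟨⟨u, hu⟩, Set.mem_univ _, hadjL _ _ hvu, ?_⟩
        rw [hlen]
        have e1 : pathDist Γ ℓ v u = h u - h v := by
          apply le_antisymm
          · refine (pathDist_adj hd.pos hvu).trans ?_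
            rw [he]
          · rw [hd.sym v u]
            exact (le_abs_self _).trans (hlip u v)
        show pathDist Γ ℓ v u = _
        rw [e1]
        ring) v (Set.mem_univ _)
    have e2 : -h (v : W) - -h t = h t - h v := by ring
    exact this.trans_eq e2
  have hgeo : ∀ v, D ⟨s, hd.sL⟩ v + D v ⟨t, hd.tL⟩ = D ⟨s, hd.sL⟩ ⟨t, hd.tL⟩ := by
    intro v
    have h1 := hDs v
    have h2 := hDt v
    have h3 := hlow ⟨s, hd.sL⟩ ⟨t, hd.tL⟩
    have h4 := hlip s t
    have h5 := hm'.tri ⟨s, hd.sL⟩ v ⟨t, hd.tL⟩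
    have h6 := hm'.symm ⟨s, hd.sL⟩ v
    have h7 := neg_le_abs (h s - h t)
    have h8 : pathDist Γ ℓ s t ≤ D ⟨s, hd.sL⟩ ⟨t, hd.tL⟩ := h3
    apply le_antisymm _ h5
    rw [h6]
    linarith
  refine ⟨hconn, hplane, hpos', hst, hgeo, fun x y => ⟨hlow x y, ?_⟩⟩
  -- the upper bound
  -- `D` on `W`
  let D' : W → W → ℝ := fun x y => D ⟨ν x, hνL x⟩ ⟨ν y, hνL y⟩
  have hD'L : ∀ a b : L, D' a b = D a b := by
    intro a b
    show D ⟨ν a, _⟩ ⟨ν b, _⟩ = D a b
    have ha : (⟨ν a.1, hνL a.1⟩ : L) = a := Subtype.ext (hν a.1 a.2)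
    have hb : (⟨ν b.1, hνL b.1⟩ : L) = b := Subtype.ext (hν b.1 b.2)
    rw [ha, hb]
  have hD'0 : ∀ x, D' x x = 0 := fun x => hm'.self _
  have hD'tri : ∀ x y z, D' x z ≤ D' x y + D' y z := fun x y z => hm'.tri _ _ _
  have hD'sym : ∀ x y, D' x y = D' y x := fun x y => hm'.symm _ _
  have hD'nn : ∀ x y, 0 ≤ D' x y := fun x y => hm'.nonneg _ _
  have hD'ν : ∀ x y, D' (ν x) y = D' x y := by
    intro x y
    show D ⟨ν (ν x), _⟩ _ = D ⟨ν x, _⟩ _
    have : (⟨ν (ν x), hνL (ν x)⟩ : L) = ⟨ν x, hνL x⟩ := Subtype.ext (hν _ (hνL x))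
    rw [this]
  let R : W → W → Prop := fun u v => Γ.Adj u v ∧ h u < h v ∧ ℓ s(u, v) = h v - h u ∧ u ∈ L ∧ v ∈ L
  have hR1 : ∀ u v, R u v → Γ.Adj u v ∧ h u < h v ∧ u ∈ L ∧ v ∈ L := fun u v e =>
    ⟨e.1, e.2.1, e.2.2.2.1, e.2.2.2.2⟩
  have hRD : ∀ u v, R u v → D' u v ≤ h v - h u := by
    rintro u v ⟨h1, -, h2, h3, h4⟩
    have := hsteep ⟨u, h3⟩ ⟨v, h4⟩ h1 h2
    rwa [← hD'L] at this
  have harc : ∀ {p q : W} {A : Set W}, Arc R h p q A → ∀ x ∈ A, ∀ y ∈ A,
      D' x y ≤ pathDist Γ ℓ x y := by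
    intro p q A hA x hx y hy
    have key := hA.dist_le hD'0 hD'tri fun x _ y _ e => hRD x y e
    rcases le_total (h x) (h y) with h1 | h1
    · refine (key x hx y hy h1).trans ?_
      rw [hd.sym]
      exact (le_abs_self _).trans (hlip y x)
    · rw [hD'sym]
      exact (key y hy x hx h1).trans ((le_abs_self _).trans (hlip x y))
  -- one edge
  have hedge : ∀ u v, Γ.Adj u v →
      D' u v ≤ pathDist Γ ℓ u (ν u) + ℓ s(u, v) + pathDist Γ ℓ v (ν v) := by
    intro u v huv
    have h1 : pathDist Γ ℓ (ν u) (ν v) ≤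
        pathDist Γ ℓ u (ν u) + ℓ s(u, v) + pathDist Γ ℓ v (ν v) := by
      have e1 := hm.tri (ν u) u (ν v)
      have e2 := pd_step hd.conn hd.pos huv (ν v)
      rw [hd.sym (ν u) u] at e1
      linarith
    rcases hadj' u v huv with h2 | h2
    · have h3 : D' u v = 0 := by
        show D ⟨ν u, _⟩ ⟨ν v, _⟩ = 0
        rw [h2]
        exact hm'.self _
      rw [h3]
      have := hm.nonneg u (ν u)
      have := hm.nonneg v (ν v)
      have := hd.pos _ (Γ.mem_edgeSet.2 huv)
      linarith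
    · exact (hstepD _ _ h2).trans h1
  -- the switch between two arcs
  have hsw : ∀ {A B : Set W}, (∀ x ∈ A, ∀ y ∈ A, D' x y ≤ pathDist Γ ℓ x y) →
      (∀ x ∈ B, ∀ y ∈ B, D' x y ≤ pathDist Γ ℓ x y) → ∀ {u b : W} (r : Γ.Walk u b),
      (∀ w ∈ r.support, ν w ∈ A ∨ ν w ∈ B) → b ∈ L → b ∉ A → b ∈ B → ∀ (a : W) (lam : ℝ),
      a ∈ A → a ∈ L → ν u ∈ A → pathDist Γ ℓ a u ≤ lam → D' a b ≤ 3 * (lam + len ℓ r) := by
    intro A B hA hB u b r
    induction r with
    | nil =>
      intro _ hbL hbA _ a lam _ _ hu _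
      rw [hν _ hbL] at hu
      exact absurd hu hbA
    | @cons u w b huw r ih =>
      intro hsup hbL hbA hbB a lam ha haL hu hlam
      have hl := hd.pos _ (Γ.mem_edgeSet.2 huw)
      rw [len_cons]
      by_cases hw : ν w ∈ A
      · have h1 := ih (fun z hz => hsup z (by
          rw [Walk.support_cons]; exact List.mem_cons_of_mem _ hz)) hbL hbA hbB a
          (lam + ℓ s(u, w)) ha haL hw (by
            have e1 := hm.tri a u w
            have e2 := pathDist_adj hd.pos huw
            linarith)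
        linarith
      · have hwB : ν w ∈ B := (hsup w (by
          rw [Walk.support_cons]; exact List.mem_cons_of_mem _ r.start_mem_support)).resolve_left hw
        -- distances
        have e1 : pathDist Γ ℓ w b ≤ len ℓ r := pd_le hd.pos r
        have e2 : pathDist Γ ℓ u (ν u) ≤ lam := by
          have := hmin u a haL
          rw [hd.sym u a] at this
          linarith
        have e3 : pathDist Γ ℓ w (ν w) ≤ len ℓ r := (hmin w b hbL).trans e1
        have f1 : D' a u ≤ 2 * lam := by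
          rw [hD'sym, ← hD'ν, hD'sym]
          have g1 := hA a ha (ν u) hu
          have g2 := hm.tri a u (ν u)
          linarith
        have f2 := hedge u w huw
        have f3 : D' w b ≤ 2 * len ℓ r := by
          rw [← hD'ν]
          have g1 := hB (ν w) hwB b hbB
          have g2 := hm.tri (ν w) w b
          rw [hd.sym (ν w) w] at g2
          linarith
        have f4 := hD'tri a u b
        have f5 := hD'tri u w b
        linarith
  -- a walk outside `L`
  have hout : ∀ {v w : W} (r : Γ.Walk v w), (∀ z ∈ r.support, z ∉ L) →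
      ∀ z ∈ r.support, ReachOff Γ L v z := by
    intro v w r
    induction r with
    | nil =>
      intro hr z hz
      rw [Walk.support_nil, List.mem_singleton] at hz
      subst hz
      exact ReachOff.refl (hr _ (by simp))
    | @cons v v' w hvv r ih =>
      intro hr z hz
      have hv : v ∉ L := hr v (by simp)
      have hr' : ∀ z ∈ r.support, z ∉ L := fun z hz => hr z (by
        rw [Walk.support_cons]; exact List.mem_cons_of_mem _ hz)
      rw [Walk.support_cons, List.mem_cons] at hz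
      rcases hz with rfl | hz
      · exact ReachOff.refl hv
      · exact (ReachOff.adj hv (hr' _ r.start_mem_support) hvv).trans (ih hr' z hz)
  -- cells of a component
  have hcomp : ∀ v, v ∉ L → ∀ z, ReachOff Γ L v z → ∃ z', ReachOff Γ L v z' ∧ Γ.Adj z' (ν z) := by
    intro v hv z
    have hwf : WellFounded (fun x y : W => pathDist Γ ℓ x (ν x) < pathDist Γ ℓ y (ν y)) := by
      have : IsTrans W (fun x y : W => pathDist Γ ℓ x (ν x) < pathDist Γ ℓ y (ν y)) :=
        ⟨fun _ _ _ h1 h2 => h1.trans h2⟩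
      have : Std.Irrefl (fun x y : W => pathDist Γ ℓ x (ν x) < pathDist Γ ℓ y (ν y)) :=
        ⟨fun _ => lt_irrefl _⟩
      exact Finite.wellFounded_of_trans_of_irrefl _
    induction z using hwf.induction with
    | _ z ih =>
      intro hz
      obtain ⟨y, hzy, hy, hlt⟩ := hstep z hz.right
      by_cases hyL : y ∈ L
      · refine ⟨z, hz, ?_⟩
        rw [← hy, hν y hyL]
        exact hzy
      · obtain ⟨z', h1, h2⟩ := ih y (by rw [hy]; exact hlt)
          (hz.trans (ReachOff.adj hz.right hyL hzy))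
        exact ⟨z', h1, by rwa [← hy]⟩
  -- a segment through one component
  have hseg : ∀ (a v w b : W) (r : Γ.Walk v w), a ∈ L → b ∈ L → Γ.Adj a v →
      (∀ z ∈ r.support, z ∉ L) → Γ.Adj w b → D' a b ≤ 3 * (ℓ s(a, v) + len ℓ r + ℓ s(w, b)) := by
    intro a v w b r ha hb hav hr hwb
    have hv : v ∉ L := hr v r.start_mem_support
    have hw : w ∉ L := hr w r.end_mem_support
    have hwv : ReachOff Γ L v w := hout r hr w r.end_mem_support
    obtain ⟨A, B, p, q, -, hA, -, -, -, hcov, hcase⟩ := cyc hd.conn hd.plane hR1 hd.sL hd.tL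
      (fun x hx hxs => by
        obtain ⟨u, hu, h1, h2, h3⟩ := hd.down x hx hxs
        exact ⟨u, h1.symm, h2, by rw [Sym2.eq_swap]; exact h3, hu, hx⟩)
      (fun x hx hxt => by
        obtain ⟨u, hu, h1, h2, h3⟩ := hd.up x hx hxt
        exact ⟨u, h1, h2, h3, hx, hu⟩) hd.st (comp_connected hv)
      (Set.disjoint_left.2 fun x hx hx' => (ReachOff.right hx) hx')
    have hlenr : pathDist Γ ℓ a b ≤ ℓ s(a, v) + len ℓ r + ℓ s(w, b) := by
      have e1 := hm.tri a v b
      have e2 := hm.tri v w b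
      have e3 := pathDist_adj hd.pos hav
      have e4 := pathDist_adj hd.pos hwb
      have e5 : pathDist Γ ℓ v w ≤ len ℓ r := pd_le hd.pos r
      linarith
    have hAD : ∀ x ∈ A, ∀ y ∈ A, D' x y ≤ pathDist Γ ℓ x y := harc hA
    have haN : ∃ x ∈ compSet Γ L v, Γ.Adj x a := ⟨v, ReachOff.refl hv, hav.symm⟩
    have hbN : ∃ x ∈ compSet Γ L v, Γ.Adj x b := ⟨w, hwv, hwb⟩
    have hsame : ∀ {A' : Set W}, (∀ x ∈ A', ∀ y ∈ A', D' x y ≤ pathDist Γ ℓ x y) → a ∈ A' →
        b ∈ A' → D' a b ≤ 3 * (ℓ s(a, v) + len ℓ r + ℓ s(w, b)) := by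
      intro A' hA' h1 h2
      have h3 := hA' a h1 b h2
      have h4 := hm.nonneg a b
      linarith
    rcases hcase with ⟨hB, -, -⟩ | ⟨-, -, -, hcase⟩
    swap
    · exact hsame hAD (hcase a ha haN) (hcase b hb hbN)
    have hBD : ∀ x ∈ B, ∀ y ∈ B, D' x y ≤ pathDist Γ ℓ x y := harc hB
    have hνcov : ∀ z ∈ (Walk.cons hav (r.concat hwb)).support, ν z ∈ A ∨ ν z ∈ B := by
      intro z hz
      rw [Walk.support_cons, List.mem_cons, Walk.support_concat, List.mem_append,
        List.mem_singleton] at hz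
      rcases hz with rfl | hz | rfl
      · rw [hν _ ha]
        exact hcov _ ha haN
      · have h1 := hout r hr z hz
        obtain ⟨z', h2, h3⟩ := hcomp v hv z h1
        exact hcov _ (hνL z) ⟨z', h2, h3⟩
      · rw [hν _ hb]
        exact hcov _ hb hbN
    have hlen2 : len ℓ (Walk.cons hav (r.concat hwb)) = ℓ s(a, v) + len ℓ r + ℓ s(w, b) := by
      rw [len_cons, Walk.concat_eq_append, len_append, len_cons, len_nil]
      ring
    have hrev : ∀ {A B : Set W}, (∀ x ∈ A, ∀ y ∈ A, D' x y ≤ pathDist Γ ℓ x y) →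
        (∀ x ∈ B, ∀ y ∈ B, D' x y ≤ pathDist Γ ℓ x y) →
        (∀ z ∈ (Walk.cons hav (r.concat hwb)).support, ν z ∈ A ∨ ν z ∈ B) → a ∈ A → b ∈ B →
        D' a b ≤ 3 * (ℓ s(a, v) + len ℓ r + ℓ s(w, b)) := by
      intro A B hA hB hcov haA hbB
      by_cases hbA : b ∈ A
      · exact hsame hA haA hbA
      · have := hsw hA hB (Walk.cons hav (r.concat hwb)) hcov hb hbA hbB a 0 haA ha
          (by rw [hν a ha]; exact haA) (by rw [hm.self])
        rw [zero_add, hlen2] at this
        exact this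
    rcases hcov a ha haN with haA | haB
    · rcases hcov b hb hbN with hbA | hbB
      · exact hsame hAD haA hbA
      · exact hrev hAD hBD hνcov haA hbB
    · rcases hcov b hb hbN with hbA | hbB
      · exact hrev hBD hAD (fun z hz => (hνcov z hz).symm) haB hbA
      · exact hsame hBD haB hbB
  -- all walks
  have hwalk : ∀ {u y : W} (p : Γ.Walk u y), y ∈ L →
      (u ∈ L → D' u y ≤ 3 * len ℓ p) ∧
      (u ∉ L → ∃ (w b : W) (r : Γ.Walk u w), (∀ z ∈ r.support, z ∉ L) ∧ b ∈ L ∧ Γ.Adj w b ∧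
        3 * (len ℓ r + ℓ s(w, b)) + D' b y ≤ 3 * len ℓ p) := by
    intro u y p
    induction p with
    | @nil u =>
      intro hu
      refine ⟨fun _ => ?_, fun h => absurd hu h⟩
      rw [hD'0, len_nil]
      norm_num
    | @cons u v y huv p ih =>
      intro hy
      obtain ⟨ih1, ih2⟩ := ih hy
      have hl := hd.pos _ (Γ.mem_edgeSet.2 huv)
      rw [len_cons]
      constructor
      · intro hu
        by_cases hv : v ∈ L
        · have h1 := ih1 hv
          have h2 := hedge u v huv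
          rw [hν u hu, hν v hv, hm.self, hm.self] at h2
          have h3 := hD'tri u v y
          linarith
        · obtain ⟨w, b, r, h1, h2, h3, h4⟩ := ih2 hv
          have h5 := hseg u v w b r hu h2 huv h1 h3
          have h6 := hD'tri u b y
          linarith
      · intro hu
        by_cases hv : v ∈ L
        · refine ⟨u, v, Walk.nil, ?_, hv, huv, ?_⟩
          · intro z hz
            rw [Walk.support_nil, List.mem_singleton] at hz
            rw [hz]
            exact hu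
          · have h1 := ih1 hv
            rw [len_nil]
            linarith
        · obtain ⟨w, b, r, h1, h2, h3, h4⟩ := ih2 hv
          refine ⟨w, b, Walk.cons huv r, ?_, h2, h3, ?_⟩
          · intro z hz
            rw [Walk.support_cons, List.mem_cons] at hz
            rcases hz with rfl | hz
            · exact hu
            · exact h1 z hz
          · rw [len_cons]
            linarith
  obtain ⟨p, hp⟩ := exists_geodesic hd.conn hd.pos (x : W) y
  have h1 := (hwalk p y.2).1 x.2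
  have h2 : len ℓ p = pathDist Γ ℓ x y := hp
  rw [h2] at h1
  rw [← hD'L]
  exact h1

/-- **intervals with adjacent ends** -/
theorem embeds {n : ℕ} {K : ℝ} (hK : StBound n K) (hK0 : 0 ≤ K) (hn : Nat.card W ≤ n) :
    EmbedsL1 (fun u v : L => pathDist Γ ℓ u v) (3 * K) := by
  obtain ⟨ν, h1, h2, h3, h4⟩ := exists_nu hd.conn hd.pos ⟨s, hd.sL⟩
  obtain ⟨c1, c2, c3, c4, c5, c6⟩ := hd.main h1 h2 h3 h4
  have hcard : Nat.card L ≤ n :=
    (Nat.card_le_card_of_injective _ Subtype.val_injective).trans hn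
  obtain ⟨Ω, mΩ, μ, f, hf⟩ := hK L _ _ _ _ c1 c2 c3 c4 c5 hcard
  refine ⟨Ω, mΩ, μ, f, fun x y => ?_⟩
  obtain ⟨g1, g2⟩ := hf x y
  obtain ⟨g3, g4⟩ := c6 x y
  refine ⟨g3.trans g1, g2.trans ?_⟩
  have := mul_le_mul_of_nonneg_left g4 hK0
  calc K * _ ≤ K * (3 * pathDist Γ ℓ x y) := this
    _ = 3 * K * pathDist Γ ℓ x y := by ring

end StData

end Vale.Agent.P235.LL
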