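/-
P235-LL (helper565): the map of one step with the distortion of `s`-`t` graphs as a parameter; the
reduction of the planar case to plane graphs with an edge `st` such that all vertices lie on shortest
`s`-`t` paths.
-/
import Vale.Agent.P235.LL.H565.StRed
import Vale.Agent.P235.LL.H565.IntStep
import Vale.Agent.P235.LL.H565.Final

set_option linter.all false
set_option autoImplicit false

namespace Vale.Agent.P235.LL

open SimpleGraph Vale.Agent.P235 H20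

section

variable {W : Type} {Γ : SimpleGraph W} {ℓ₀ : Sym2 W → ℝ} {h : W → ℝ}

/-- two ends which are adjacent -/
theorem embeds_of_st [Finite W] {n : ℕ} {K : ℝ} (hK : StBound n K) (hK0 : 0 ≤ K)
    (hP : ∃ σ : Equiv.Perm Γ.Dart, PlaneMap Γ σ) (hc : Γ.Connected)
    (hpos : ∀ a ∈ Γ.edgeSet, 0 < lmax ℓ₀ h a) (hn : Nat.card W ≤ n) {D : ℝ} (hD : 1 ≤ D)
    {L : Set W} {s t : W} (hs : s ∈ L) (ht : t ∈ L) (hst : Γ.Adj s t)
    (down : ∀ v ∈ L, v ≠ s → ∃ u ∈ L, Γ.Adj v u ∧ h u ≤ h v ∧ ℓ₀ s(v, u) ≤ D * (h v - h u))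
    (up : ∀ v ∈ L, v ≠ t → ∃ u ∈ L, Γ.Adj v u ∧ h v ≤ h u ∧ ℓ₀ s(v, u) ≤ D * (h u - h v)) :
    EmbedsL1 (fun u v : L => pathDist Γ (lmax ℓ₀ h) u v) (D * (3 * K)) := by
  classical
  have hpos' : ∀ a ∈ Γ.edgeSet, 0 < lsh D ℓ₀ h a := fun a ha => lsh_pos hD a (hpos a ha)
  have hle1 : ∀ a b : W, pathDist Γ (lsh D ℓ₀ h) a b ≤ pathDist Γ (lmax ℓ₀ h) a b := fun a b =>
    le_pd hc fun p => (pd_le hpos' p).trans (by
      have := len_mono (D := 1) p fun e _ => (lsh_le (ℓ₀ := ℓ₀) (h := h) (D := D) e).trans_eq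
        (one_mul _).symm
      linarith)
  have hD0 : (0 : ℝ) < D := by linarith
  have hle2 : ∀ a b : W, pathDist Γ (lmax ℓ₀ h) a b ≤ D * pathDist Γ (lsh D ℓ₀ h) a b := by
    intro a b
    have h1 : D⁻¹ * pathDist Γ (lmax ℓ₀ h) a b ≤ pathDist Γ (lsh D ℓ₀ h) a b :=
      le_pd hc fun p => by
        have h2 := pd_le hpos p
        have h3 := len_mono (ℓ' := lsh D ℓ₀ h) p fun e he => le_lsh hD e (hpos e he)
        rw [inv_mul_le_iff₀ hD0]
        exact h2.trans h3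
    rwa [inv_mul_le_iff₀ hD0] at h1
  have hdata : StData Γ (lsh D ℓ₀ h) h L s t :=
  { conn := hc
    pos := hpos'
    plane := hP
    sL := hs
    tL := ht
    st := hst
    lip := fun e _ => hdiff_le_lsh e
    down := fun v hv hvs => by
      obtain ⟨u, hu, h1, h2, h3⟩ := down v hv hvs
      have h4 := lsh_steep hD h2 h3
      have h5 := hpos' _ (Γ.mem_edgeSet.2 h1)
      exact ⟨u, hu, h1, by linarith, h4⟩
    up := fun v hv hvt => by
      obtain ⟨u, hu, h1, h2, h3⟩ := up v hv hvt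
      have h4 : lsh D ℓ₀ h s(v, u) = h u - h v := by
        rw [Sym2.eq_swap, lsh_steep hD h2 (by rw [Sym2.eq_swap]; exact h3)]
      have h5 := hpos' _ (Γ.mem_edgeSet.2 h1)
      exact ⟨u, hu, h1, by linarith, h4⟩ }
  obtain ⟨Ω, mΩ, μ, f, hf⟩ := hdata.embeds hK hK0 hn
  refine ⟨Ω, mΩ, μ, fun v => D • f v, fun x y => ?_⟩
  obtain ⟨h1, h2⟩ := hf x y
  have h3 : ‖D • f x - D • f y‖ = D * ‖f x - f y‖ := by
    rw [← smul_sub, norm_smul, Real.norm_of_nonneg hD0.le]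
  have h4 := hle1 x y
  have h5 := hle2 x y
  rw [h3]
  constructor
  · exact h5.trans (mul_le_mul_of_nonneg_left h1 hD0.le)
  · have hK3 : 0 ≤ 3 * K := by linarith
    calc D * ‖f x - f y‖
        ≤ D * (3 * K * pathDist Γ (lsh D ℓ₀ h) x y) := mul_le_mul_of_nonneg_left h2 hD0.le
      _ ≤ D * (3 * K * pathDist Γ (lmax ℓ₀ h) x y) :=
        mul_le_mul_of_nonneg_left (mul_le_mul_of_nonneg_left h4 hK3) hD0.le
      _ = D * (3 * K) * pathDist Γ (lmax ℓ₀ h) x y := by ring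

end

section

variable {V : Type} {G : SimpleGraph V} {ℓ : Sym2 V → ℝ} {U P : Set V} {w hh : V → ℝ}
  {M F : Set V} {ρ : V → ℝ} {Γ : SimpleGraph (Option {v : V // v ∈ U ∨ v ∈ P})}

theorem step_ends' [Finite V] (h : Step G ℓ U P w hh M F ρ) (hT' : IsT G U P w Γ)
    {H₀ : ℝ} (hH : ∀ v, hh v < H₀) :
    ∃ s t : Option {v : V // v ∈ U ∨ v ∈ P}, s ∈ H20.vis U P M ∧ t ∈ H20.vis U P M ∧
      Γ.Adj s t ∧
      (∀ v ∈ H20.vis U P M, v ≠ s → ∃ u ∈ H20.vis U P M, Γ.Adj v u ∧ hT hh H₀ u ≤ hT hh H₀ v ∧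
        l0 G ℓ U P s(v, u) ≤ 4 * (hT hh H₀ v - hT hh H₀ u)) ∧
      ∀ v ∈ H20.vis U P M, v ≠ t → ∃ u ∈ H20.vis U P M, Γ.Adj v u ∧ hT hh H₀ v ≤ hT hh H₀ u ∧
        l0 G ℓ U P s(v, u) ≤ 4 * (hT hh H₀ u - hT hh H₀ v) := by
  obtain ⟨b, hb, hmin⟩ := exists_min (w := w) h.neP
  have hlP : ∀ {u v : {v : V // v ∈ U ∨ v ∈ P}}, (u : V) ∈ P → (v : V) ∈ P →
      l0 G ℓ U P s(some u, some v) = 0 := fun hu hv =>
    l0_path (not_or.2 ⟨h.disj _ hu, h.disj _ hv⟩)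
  refine ⟨some ⟨b, Or.inr hb⟩, none, vis_some (Or.inr hb), vis_none,
    ((hT'.ns _).2 (Or.inl ⟨hb, hmin⟩)).symm, ?_, ?_⟩
  · intro x hx hxs
    cases x with
    | none =>
      refine ⟨some ⟨b, Or.inr hb⟩, vis_some (Or.inr hb), (hT'.ns _).2 (Or.inl ⟨hb, hmin⟩),
        (hH b).le, ?_⟩
      rw [l0_none']
      have := hH b
      change (0 : ℝ) ≤ 4 * (H₀ - hh b)
      linarith
    | some v =>
      rcases hx v rfl with hv | hv
      · obtain ⟨y, h1, h2, h3⟩ := h.dn v hv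
        have hy : y ∈ U ∨ y ∈ P := h2.imp (fun h1 => h.MU h1) id
        have hvy := hT'.real v.2 hy h1 (Or.inl (h.MU hv))
        refine ⟨some ⟨y, hy⟩, vis_some h2, hvy, ?_, ?_⟩
        · have := h.pos _ (G.mem_edgeSet.2 h1)
          change hh y ≤ hh v
          linarith
        · rw [l0_real (u := v) (v := ⟨y, hy⟩) h1 (Or.inl (h.MU hv))]
          exact h3
      · have h1 : ∃ c ∈ P, w c < w v := by
          refine ⟨b, hb, lt_of_le_of_ne (hmin v hv) fun h1 => hxs ?_⟩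
          have h2 := h.inj b hb v hv h1
          exact congrArg some (Subtype.ext h2.symm)
        obtain ⟨a, ha⟩ := exists_lower hv h1
        have h2 := h.hhP a ha.1 v hv ha.2.2.1
        refine ⟨some ⟨a, Or.inr ha.1⟩, vis_some (Or.inr ha.1), (hT'.ss _ _).2 ⟨?_, ?_⟩, h2.le, ?_⟩
        · exact fun h3 => lt_irrefl _ (ha.2.2.1.trans_eq (congrArg (fun u => w (Subtype.val u)) h3))
        · exact Or.inr (Or.inr ha)
        · rw [hlP hv ha.1]
          change (0 : ℝ) ≤ 4 * (hh v - hh a)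
          linarith
  · intro x hx hxt
    cases x with
    | none => exact absurd rfl hxt
    | some v =>
      have hnone : Γ.Adj none (some v) → ∃ u ∈ vis U P M, Γ.Adj (some v) u ∧
          hT hh H₀ (some v) ≤ hT hh H₀ u ∧
          l0 G ℓ U P s(some v, u) ≤ 4 * (hT hh H₀ u - hT hh H₀ (some v)) := by
        intro h1
        have h2 := hH v
        refine ⟨none, vis_none, h1.symm, h2.le, ?_⟩
        rw [l0_none]
        change (0 : ℝ) ≤ 4 * (H₀ - hh v)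
        linarith
      rcases hx v rfl with hv | hv
      · rcases h.up v hv with ⟨y, h1, h2, h3⟩ | h1
        · have hy : y ∈ U ∨ y ∈ P := h2.imp (fun h1 => h.MU h1) id
          have hvy := hT'.real v.2 hy h1 (Or.inl (h.MU hv))
          refine ⟨some ⟨y, hy⟩, vis_some h2, hvy, ?_, ?_⟩
          · have := h.pos _ (G.mem_edgeSet.2 h1)
            change hh v ≤ hh y
            linarith
          · rw [l0_real (u := v) (v := ⟨y, hy⟩) h1 (Or.inl (h.MU hv))]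
            exact h3
        · exact hnone ((hT'.ns v).2 (Or.inr (Or.inr ⟨h.MU hv, h1⟩)))
      · by_cases h1 : ∃ c ∈ P, w v < w c
        · obtain ⟨c, hc⟩ := exists_upper hv h1
          have h2 := h.hhP v hv c hc.2.1 hc.2.2.1
          refine ⟨some ⟨c, Or.inr hc.2.1⟩, vis_some (Or.inr hc.2.1), (hT'.ss _ _).2 ⟨?_, ?_⟩,
            h2.le, ?_⟩
          · exact fun h3 => lt_irrefl _
              (hc.2.2.1.trans_eq (congrArg (fun u => w (Subtype.val u)) h3).symm)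
          · exact Or.inr (Or.inl hc)
          · rw [hlP hv hc.2.1]
            change (0 : ℝ) ≤ 4 * (hh c - hh v)
            linarith
        · push Not at h1
          exact hnone ((hT'.ns v).2 (Or.inr (Or.inl ⟨hv, h1⟩)))

/-- **(4)(a)** the comparison semimetric on the newly visible vertices -/
theorem step_embed' [Finite V] (h : Step G ℓ U P w hh M F ρ) (hT' : IsT G U P w Γ)
    {σ : Equiv.Perm Γ.Dart} (hσ : PlaneMap Γ σ) {K : ℝ} (hK1 : 1 ≤ K)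
    (hI : StBound (Nat.card V + 1) K) :
    ∃ R : V → V → ℝ, IsL1 R ∧ ∀ a ∈ F, a ∈ M → ∀ b ∈ F, b ∈ M →
      (pathDist G ℓ a b < ρ a + ρ b → R a b ≤ pathDist G ℓ a b) ∧
      min (pathDist G ℓ a b) (ρ a + ρ b) ≤ 4 * (3 * K) * R a b := by
  classical
  have hne : Nonempty V := ⟨h.neP.some⟩
  obtain ⟨m, hm⟩ : ∃ m, ∀ v, hh v + ρ v ≤ m :=
    ⟨_, fun v => le_ciSup (f := fun v => hh v + ρ v) (Set.finite_range _).bddAbove v⟩
  have hH : ∀ v, hh v < m + 1 := fun v => by linarith [hm v, h.rho0 v]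
  have hH' : ∀ v, hh v + ρ v ≤ m + 1 := fun v => by linarith [hm v]
  have hcmp := h.cmp hT' hH hH'
  have hcard : Nat.card (Option {v : V // v ∈ U ∨ v ∈ P}) ≤ Nat.card V + 1 := by
    rw [Finite.card_option]
    have h2 : Nat.card {v : V // v ∈ U ∨ v ∈ P} ≤ Nat.card V :=
      Nat.card_le_card_of_injective _ Subtype.val_injective
    omega
  obtain ⟨s, t, hsL, htL, hst, hdn, hup⟩ := step_ends' h hT' hH
  obtain ⟨Ω, mΩ, μ, f, hf⟩ := embeds_of_st hI (by linarith) ⟨σ, hσ⟩ hcmp.conn' hcmp.pos' hcard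
    (by norm_num) hsL htL hst hdn hup
  have hK0 : 0 < 4 * (3 * K) := by linarith
  generalize 4 * (3 * K) = K at hf hK0 ⊢
  have hin : ∀ v, v ∈ M → em U P v ∈ vis U P M := fun v hv => by
    rw [em_U (h.MU hv)]
    exact vis_some (Or.inl hv)
  let φ : V → vis U P M := fun v => if hv : v ∈ M then ⟨em U P v, hin v hv⟩ else ⟨none, vis_none⟩
  have hφ : ∀ v, v ∈ M → (φ v : Option {v : V // v ∈ U ∨ v ∈ P}) = em U P v := fun v hv => by
    simp only [φ, dif_pos hv]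
  have hR : L1S (fun x y => 1 / K * ‖f (φ x) - f (φ y)‖) :=
    L1S.smul ⟨Ω, mΩ, μ, fun x => f (φ x), fun _ _ => rfl⟩ (by positivity)
  refine ⟨_, hR.isL1, fun a ha ha' b hb hb' => ⟨fun hd => ?_, ?_⟩⟩
  · have h1 : ‖f (φ a) - f (φ b)‖ ≤ K *
        pathDist Γ (l1 G ℓ U P hh (m + 1)) (φ a) (φ b) := (hf (φ a) (φ b)).2
    rw [hφ a ha', hφ b hb'] at h1
    have h2 := hcmp.upper ha hb hd
    have h3 : ‖f (φ a) - f (φ b)‖ ≤ K * pathDist G ℓ a b :=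
      h1.trans (mul_le_mul_of_nonneg_left h2 hK0.le)
    rw [one_div, inv_mul_le_iff₀ hK0]
    exact h3
  · have h1 : pathDist Γ (l1 G ℓ U P hh (m + 1)) (φ a) (φ b) ≤ ‖f (φ a) - f (φ b)‖ :=
      (hf (φ a) (φ b)).1
    rw [hφ a ha', hφ b hb'] at h1
    have h2 := (hcmp.lower ha hb).trans h1
    have h3 : K * (1 / K * ‖f (φ a) - f (φ b)‖) = ‖f (φ a) - f (φ b)‖ := by
      field_simp
    rw [h3]
    exact h2

/-- **(4)(b)** the map of one step on the vertices visible after the step -/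
theorem step_quot' [Finite V] (h : Step G ℓ U P w hh M F ρ) (hT' : IsT G U P w Γ)
    {σ : Equiv.Perm Γ.Dart} (hσ : PlaneMap Γ σ) {K : ℝ} (hK1 : 1 ≤ K)
    (hI : StBound (Nat.card V + 1) K) :
    ∃ Q : V → V → ℝ, IsL1 Q ∧
      (∀ x y, x ∉ F → y ∉ F → (x ∉ U ∨ x ∈ M) → (y ∉ U ∨ y ∈ M) → Q x y = 0) ∧
      ∀ x y, (x ∉ U ∨ x ∈ M) → (y ∉ U ∨ y ∈ M) → Q x y ≤ 18 * pathDist G ℓ x y ∧
        Q x y ≤ 9 * (ρ x + ρ y) ∧
        min (pathDist G ℓ x y) (ρ x + ρ y) ≤ 768 * K * Q x y := by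
  classical
  obtain ⟨R, hR, hR'⟩ := step_embed' h hT' hσ hK1 hI
  have hmem : ∀ x : {x : V // x ∉ U ∨ x ∈ M}, 0 < ρ x → (x : V) ∈ F ∧ (x : V) ∈ M := by
    intro x hx
    have h1 : (x : V) ∈ F := by
      by_contra h2
      rw [h.rhoF _ h2] at hx
      exact lt_irrefl _ hx
    exact ⟨h1, x.2.resolve_left fun h2 => h2 (h.FU h1)⟩
  obtain ⟨Q, hQ, q1, q2, q3, q4⟩ := LL.H296.quot (V := {x : V // x ∉ U ∨ x ∈ M})
    (d := fun x y => pathDist G ℓ x y) (F := fun x y => R x y) (ρ := fun x => ρ x) (C := 1)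
    (K := 4 * (3 * K)) (fun x y => pd_nonneg h.pos _ _) (fun x => h.rho0 _)
    (fun x y => h.rho_lip _ _) (hR.comap _) zero_le_one (by linarith)
    (fun x y hx hy hd => by
      rw [one_mul]
      exact (hR' _ (hmem x hx).1 (hmem x hx).2 _ (hmem y hy).1 (hmem y hy).2).1 hd)
    (fun x y hx hy =>
      (hR' _ (hmem x hx).1 (hmem x hx).2 _ (hmem y hy).1 (hmem y hy).2).2)
  obtain ⟨b, hb⟩ := h.neP
  let φ : V → {x : V // x ∉ U ∨ x ∈ M} := fun x =>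
    if hx : x ∉ U ∨ x ∈ M then ⟨x, hx⟩ else ⟨b, Or.inl (h.disj b hb)⟩
  have hφ : ∀ x (hx : x ∉ U ∨ x ∈ M), φ x = ⟨x, hx⟩ := fun x hx => by
    simp only [φ, dif_pos hx]
  refine ⟨fun x y => Q (φ x) (φ y), hQ.comap φ, fun x y hx hy hx' hy' => ?_,
    fun x y hx hy => ?_⟩
  · beta_reduce
    rw [hφ x hx', hφ y hy']
    exact q1 _ _ (h.rhoF x hx) (h.rhoF y hy)
  · beta_reduce
    rw [hφ x hx, hφ y hy]
    refine ⟨(q2 ⟨x, hx⟩ ⟨y, hy⟩).trans_eq (by ring), q3 ⟨x, hx⟩ ⟨y, hy⟩,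
      (q4 ⟨x, hx⟩ ⟨y, hy⟩).trans_eq (by ring)⟩

end

/-- (TE) the map of one step, the distortion `K` of `s`-`t` graphs is a parameter -/
def RowTES : Prop := ∃ C : ℝ, 1 ≤ C ∧ ∀ (V : Type) [Finite V] (G : SimpleGraph V)
  (ℓ : Sym2 V → ℝ) (K : ℝ), Std G ℓ → 1 ≤ K → StBound (Nat.card V + 1) K →
  ∀ D, GD G ℓ D → ∀ k j, ∃ ψ : V → V → ℝ, IsL1 ψ ∧
    (∀ a ∈ D.vis k j, ∀ b ∈ D.vis k j, ψ a b = 0) ∧
    (∀ a ∈ D.vis k (j + 1), ∀ b ∈ D.vis k (j + 1), ψ a b ≤ pathDist G ℓ a b) ∧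
    (∀ a ∈ D.vis k (j + 1), ∀ b ∈ D.vis k (j + 1),
      min (pathDist G ℓ a b) (dto G ℓ (D.vis k j) a + dto G ℓ (D.vis k j) b) ≤ (C * K) * ψ a b)

/-- **row TE** -/
theorem rowTES : RowTES := by
  refine ⟨18 * 768, by norm_num, ?_⟩
  intro V _ G ℓ K hstd hK1 hI D hD k j
  obtain ⟨hh, h⟩ := H20.step_of hstd hD k j
  obtain ⟨σ, hσ⟩ := hD.1.c k.1
  obtain ⟨Q, hQ, h0, h1⟩ := step_quot' h H20.isT_TG hσ hK1 hI
  have hv1 : ∀ a ∈ D.vis k (j + 1), a ∉ D.U ∨ a ∈ D.U ∩ D.vis k (j + 1) := fun a ha =>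
    (Classical.em (a ∈ D.U)).symm.imp id fun h => ⟨h, ha⟩
  have hv0 : ∀ a ∈ D.vis k j, a ∈ D.vis k (j + 1) := by
    intro a ha hU
    obtain ⟨h2, h3⟩ := ha hU
    obtain ⟨ct, hc⟩ := hD.2 k
    refine ⟨Nat.le_add_left 1 j, ?_⟩
    have := hc.s0 a
    rw [pow_succ]
    nlinarith [pow_pos (zero_lt_two' ℝ) j]
  refine ⟨fun x y => 1 / 18 * Q x y, hQ.smul (by norm_num), fun a ha b hb => ?_,
    fun a ha b hb => ?_, fun a ha b hb => ?_⟩
  · have h2 := h0 a b (not_not.2 ha) (not_not.2 hb) (hv1 a (hv0 a ha)) (hv1 b (hv0 b hb))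
    beta_reduce
    rw [h2, mul_zero]
  · have h2 := (h1 a b (hv1 a ha) (hv1 b hb)).1
    beta_reduce
    linarith
  · have h2 := (h1 a b (hv1 a ha) (hv1 b hb)).2.2
    beta_reduce
    refine h2.trans_eq ?_
    ring


theorem StBound.anti {m n : ℕ} {K : ℝ} (h : StBound n K) (hmn : m ≤ n) : StBound m K :=
  fun W _ Γ ℓ' s t hc hP hℓ hst hg hW => h W Γ ℓ' s t hc hP hℓ hst hg (hW.trans hmn)

/-- **the reduction to `s`-`t` graphs** -/
theorem st_reduction : ∃ C : ℝ, 1 ≤ C ∧ ∀ (n : ℕ) (K : ℝ), 1 ≤ K → StBound (n + 1) K →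
    ∀ (V : Type) [Finite V] (G : SimpleGraph V), G.Connected →
      (∃ σ : Equiv.Perm G.Dart, PlaneMap G σ) → Nat.card V ≤ n → DistortionLE G (C * K) := by
  obtain ⟨A, hA, hp⟩ := process
  obtain ⟨B, hB, hTE⟩ := rowTES
  have hAB : 1 ≤ A * B := by nlinarith
  refine ⟨A * B, hAB, fun n K hK hI => ?_⟩
  refine H555.blocks (by nlinarith) ?_
  intro W _ H hc hP hcard hn hcut ℓ hℓ
  have hs : Std H ℓ := ⟨hc, hℓ, hcard, hcut, hP⟩
  obtain ⟨S, r, r', hst⟩ := sys_of H510.rowCoords H510.rowIsDom H482.rowChild H565.rowStart hs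
    (K := B * K) (hTE W H ℓ K hs hK (hI.anti (by omega)))
  have h4 := hp W H ℓ (B * K) hc hℓ (by nlinarith) S r r' hst
  rwa [← mul_assoc] at h4

end Vale.Agent.P235.LL
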