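/-
P235-LL (helper565): surfaces and deleted vertices from a bound for plane graphs; the equivalence.
-/
import Vale.Agent.P235.LL.H565.StStep
import Vale.Agent.P235.H538.Cor

set_option linter.all false
set_option autoImplicit false

namespace Vale.Agent.P235.LL

open SimpleGraph Vale.Agent.P235

/-- surfaces and deleted vertices from a bound for the plane graphs with at most `n` vertices -/
theorem near_of_planar : ∃ A : ℝ, 1 ≤ A ∧ ∀ (n : ℕ) (K : ℝ), 1 ≤ K →
    (∀ (V : Type) [Finite V] (G : SimpleGraph V), G.Connected →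
      (∃ σ : Equiv.Perm G.Dart, PlaneMap G σ) → Nat.card V ≤ n → DistortionLE G K) →
    ∀ (g t : ℕ) (V : Type) [Finite V] (G : SimpleGraph V), G.Connected → NearSurf n g t V G →
      DistortionLE G (A * (K + Real.log (g + 2) + Real.log (t + 2))) := by
  obtain ⟨B, hB1, hB⟩ := apex_log'
  refine ⟨B * 10000000, by nlinarith, ?_⟩
  rintro n K hK h g t V _ G hc ⟨-, hn, X, hX, hcomp⟩
  have hlg : 0 ≤ Real.log ((g : ℝ) + 2) :=
    Real.log_nonneg (by have : (0 : ℝ) ≤ g := Nat.cast_nonneg g; linarith)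
  have hlt : 0 ≤ Real.log ((t : ℝ) + 2) :=
    Real.log_nonneg (by have : (0 : ℝ) ≤ t := Nat.cast_nonneg t; linarith)
  have hK0 : 0 ≤ 10000000 * (K + Real.log ((g : ℝ) + 2)) := by positivity
  refine (hB _ hK0 t V G hc X hX fun u hu => ?_).mono ?_
  · have hS := comp_connected (G := G) hu
    have hcard : Nat.card (compSet G X u) ≤ n :=
      (Nat.card_le_card_of_injective _ Subtype.val_injective).trans hn
    rcases hcomp u hu with h1 | ⟨σ, hσ⟩
    · have : Subsingleton (compSet G X u) := h1.coe_sort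
      exact distortion_subsingleton _ hS.nonempty
    · refine genus_distortion g hK _ _ hS ⟨σ, hσ⟩ ?_
      rintro S hSc ⟨τ, hτ⟩
      exact h S _ hSc ⟨τ, SurfMap.plane hSc hτ⟩
        ((Nat.card_le_card_of_injective _ Subtype.val_injective).trans hcard)
  · have e1 : B * (10000000 * (K + Real.log ((g : ℝ) + 2)) + Real.log ((t : ℝ) + 2)) =
        B * (10000000 * (K + Real.log ((g : ℝ) + 2))) + B * Real.log ((t : ℝ) + 2) := by ring
    have e2 : B * 10000000 * (K + Real.log ((g : ℝ) + 2) + Real.log ((t : ℝ) + 2)) =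
        B * (10000000 * (K + Real.log ((g : ℝ) + 2))) + B * 10000000 * Real.log ((t : ℝ) + 2) := by
      ring
    rw [e1, e2]
    have : B * Real.log ((t : ℝ) + 2) ≤ B * 10000000 * Real.log ((t : ℝ) + 2) :=
      mul_le_mul_of_nonneg_right (by linarith) hlt
    linarith

theorem near_reduction : ∃ C : ℝ, 1 ≤ C ∧ ∀ (n : ℕ) (K : ℝ), 1 ≤ K → StBound (n + 1) K →
    (∀ (V : Type) [Finite V] (G : SimpleGraph V), G.Connected →
      (∃ σ : Equiv.Perm G.Dart, PlaneMap G σ) → Nat.card V ≤ n → DistortionLE G (C * K)) ∧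
    ∀ (g t : ℕ) (V : Type) [Finite V] (G : SimpleGraph V), G.Connected → NearSurf n g t V G →
      DistortionLE G (C * (K + Real.log (g + 2) + Real.log (t + 2))) := by
  obtain ⟨B, hB, h1⟩ := st_reduction
  obtain ⟨A, hA, h2⟩ := near_of_planar
  refine ⟨A * B, by nlinarith, fun n K hK hS => ?_⟩
  have h3 := h1 n K hK hS
  refine ⟨fun V _ G hc hP hn => (h3 V G hc hP hn).mono ?_, fun g t V _ G hc hG => ?_⟩
  · have : 0 ≤ (A - 1) * (B * K) := mul_nonneg (by linarith) (by positivity)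
    nlinarith
  · have hlg : 0 ≤ Real.log ((g : ℝ) + 2) :=
      Real.log_nonneg (by have : (0 : ℝ) ≤ g := Nat.cast_nonneg g; linarith)
    have hlt : 0 ≤ Real.log ((t : ℝ) + 2) :=
      Real.log_nonneg (by have : (0 : ℝ) ≤ t := Nat.cast_nonneg t; linarith)
    refine (h2 n (B * K) (by nlinarith) h3 g t V G hc hG).mono ?_
    have e1 : 0 ≤ A * ((B - 1) * (Real.log ((g : ℝ) + 2) + Real.log ((t : ℝ) + 2))) :=
      mul_nonneg (by linarith) (mul_nonneg (by linarith) (by linarith))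
    have e2 : A * B * (K + Real.log ((g : ℝ) + 2) + Real.log ((t : ℝ) + 2)) =
        A * (B * K + Real.log ((g : ℝ) + 2) + Real.log ((t : ℝ) + 2)) +
          A * ((B - 1) * (Real.log ((g : ℝ) + 2) + Real.log ((t : ℝ) + 2))) := by ring
    rw [e2]
    linarith

/-- larger constants -/
theorem embeds_max {V : Type} [Finite V] {G : SimpleGraph V} {ℓ : Sym2 V → ℝ} (hc : G.Connected)
    (hℓ : ∀ e ∈ G.edgeSet, 0 < ℓ e) {K : ℝ} (h : EmbedsL1 (pathDist G ℓ) K) :
    EmbedsL1 (pathDist G ℓ) (max K 1) := embeds_up hc hℓ h (le_max_left _ _)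

/-- **the planar case is equivalent to its `s`-`t` case** -/
theorem planar_iff : (∃ K : ℝ, ∀ (V : Type) [Finite V] (G : SimpleGraph V), G.Connected →
      (∃ σ : Equiv.Perm G.Dart, PlaneMap G σ) → DistortionLE G K) ↔
    ∃ K : ℝ, ∀ n, StBound n K := by
  constructor
  · rintro ⟨K, h⟩
    exact ⟨K, fun n W _ Γ ℓ' s t hc hP hℓ _ _ _ => h W Γ hc hP ℓ' hℓ⟩
  · rintro ⟨K, h⟩
    obtain ⟨C, hC, h1⟩ := st_reduction
    refine ⟨C * max K 1, fun V _ G hc hP => h1 (Nat.card V) (max K 1) (le_max_right _ _) ?_ V G hc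
      hP le_rfl⟩
    intro W _ Γ ℓ' s t hcΓ hPΓ hℓ hst hg hW
    exact embeds_max hcΓ hℓ (h _ W Γ ℓ' s t hcΓ hPΓ hℓ hst hg hW)

end Vale.Agent.P235.LL
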